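import Vale.Agent.P014U.Ki.Abs
import Vale.Agent.P014U.X4M.TE.Tate
import Vale.Agent.P014T.Ki.Wp

/-!
# P014U, block KISO: the pairing on the points of order a power of `pp` (helper25)
-/

set_option linter.all false

open scoped Classical

noncomputable section

namespace Vale.Agent.P014U.Ki

open Matrix
open Vale.Agent.P022 (Qb GQ)
open Vale.Agent.P014U.X4S.Ga (K O)
open Vale.Agent.P014U.X4S.Aq
open Vale.Agent.P014U.X4F.Rc (mq mq_eq mq_zero hn hn_mul)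
open Vale.Agent.P014U.X4M.TE hiding Qb GQ
open P027M.K

export Vale.Agent.P014T.Ki (tw tw_apply tw_one)

variable [Pp] {A B : ℤ} (hD : 4 * (A : ℚ) ^ 3 + 27 * (B : ℚ) ^ 2 ≠ 0)

/-- the determinant form on the Tate module -/
def dt (s t : Tm (A : ℚ) (B : ℚ)) : ℤ_[pp] :=
  (bs hD).repr s 0 * (bs hD).repr t 1 - (bs hD).repr s 1 * (bs hD).repr t 0

/-- a lift to the Tate module -/
def lf (n : ℕ) (x : Pt A B) : Tm (A : ℚ) (B : ℚ) := Function.invFun (TM.cp n) x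

/-- the pairing on the points of order `pp ^ n` -/
def wp (n : ℕ) (x y : Pt A B) : K := hn n * dt hD (lf n x) (lf n y)

variable {n : ℕ} {x y : Pt A B}

theorem lf_cp (n : ℕ) (s : Tm (A : ℚ) (B : ℚ)) : ∃ t, lf n (TM.cp n s) = s + (pp : ℤ_[pp]) ^ n • t := by
  obtain ⟨t, e⟩ := (TM.cp_eq_zero_iff (x := lf n (TM.cp n s) - s) (r := n)).1 (by
    rw [map_sub, lf, Function.invFun_eq (f := TM.cp n) ⟨s, rfl⟩, sub_self])
  exact ⟨t, sub_eq_iff_eq_add'.1 e⟩

theorem wp_cp (n : ℕ) (s t : Tm (A : ℚ) (B : ℚ)) :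
    mq (wp hD n (TM.cp n s) (TM.cp n t)) = mq (hn n * dt hD s t) := by
  obtain ⟨s', e⟩ := lf_cp n s
  obtain ⟨t', e'⟩ := lf_cp n t
  have k : dt hD (s + (pp : ℤ_[pp]) ^ n • s') (t + (pp : ℤ_[pp]) ^ n • t') = dt hD s t +
      pp ^ n * (dt hD s t' + dt hD s' t + pp ^ n * dt hD s' t') := by
    simp only [dt, map_add, map_smul, Finsupp.add_apply, Finsupp.smul_apply, smul_eq_mul]
    ring
  rw [wp, e, e', k, mq_eq]
  generalize dt hD s t' + dt hD s' t + pp ^ n * dt hD s' t' = z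
  refine O_of z.2 ?_
  rw [PadicInt.coe_add, PadicInt.coe_mul, PadicInt.coe_pow, PadicInt.coe_natCast]
  linear_combination (z : K) * hn_mul n

theorem det_mt (g : GQ) : (mt hD g).det = cz g := det_cyc hD g

theorem dt_rho (g : GQ) (s t : Tm (A : ℚ) (B : ℚ)) :
    dt hD (rho _ _ g s) (rho _ _ g t) = cz g * dt hD s t := by
  have e := fun s => LinearMap.toMatrix_mulVec_repr (bs hD) (bs hD) (rho _ _ g) s
  rw [← det_mt hD, det_fin_two, dt, dt, ← e s, ← e t]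
  change (mt hD g *ᵥ _) 0 * (mt hD g *ᵥ _) 1 - (mt hD g *ᵥ _) 1 * (mt hD g *ᵥ _) 0 = _
  simp only [mulVec, dotProduct, Fin.sum_univ_two]
  ring

theorem dt_add (s s' t : Tm (A : ℚ) (B : ℚ)) : dt hD (s + s') t = dt hD s t + dt hD s' t := by
  simp only [dt, map_add, Finsupp.add_apply]
  ring

theorem dt_skew (s t : Tm (A : ℚ) (B : ℚ)) : dt hD s t = -dt hD t s := by
  simp only [dt]
  ring

theorem dt_smul (i j : ℤ) (s t : Tm (A : ℚ) (B : ℚ)) :
    dt hD (i • s) (j • t) = (i * j : ℤ) * dt hD s t := by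
  simp only [dt, map_zsmul, Finsupp.smul_apply, zsmul_eq_mul, Int.cast_mul]
  ring

/-- the pairing is compatible with every quadratic twist of the action -/
theorem pr_of (ε : GQ → ℤ) (mul : ∀ g h, ε (g * h) = ε g * ε h) (sq : ∀ g, ε g * ε g = 1)
    (lc : IsLocallyConstant ε) : Pr (tw ε) (wp hD) where
  mul g h x := by simp only [tw_apply, map_zsmul, ga_mul, mul, smul_smul, mul_comm]
  lc x := (lc.prodMk ((IsLocallyConstant.iff_eventually_eq _).2 fun g => ev_ga g x)).comp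
    fun z => z.1 • z.2
  dv := mul_surj two_ne_zero hD pp_ne
  addl a a' b := by
    obtain ⟨s, rfl⟩ := TM.exists_cp (hdiv hD) a
    obtain ⟨s', rfl⟩ := TM.exists_cp (hdiv hD) a'
    obtain ⟨t, rfl⟩ := TM.exists_cp (hdiv hD) b
    rw [← map_add, wp_cp, wp_cp, wp_cp, dt_add, PadicInt.coe_add, mul_add, map_add]
  skew a b := by
    obtain ⟨s, rfl⟩ := TM.exists_cp (hdiv hD) a
    obtain ⟨t, rfl⟩ := TM.exists_cp (hdiv hD) b
    rw [wp_cp, wp_cp, dt_skew, PadicInt.coe_neg, mul_neg, map_neg]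
  act {n x y} g a b := by
    obtain ⟨s, rfl⟩ := TM.exists_cp (hdiv hD) a
    obtain ⟨t, rfl⟩ := TM.exists_cp (hdiv hD) b
    simp only [tw_apply, ← cp_rho, ← map_zsmul]
    rw [wp_cp, dt_rho, dt_smul, sq, mq_eq]
    refine O_of (O_mul (O_cy g) (mq_eq.1 (wp_cp hD n s t))) ?_
    rw [Int.cast_one, one_mul, PadicInt.coe_mul, ← cy_apply]
    ring
  lev {n x y} a b := by
    obtain ⟨s, rfl⟩ := TM.exists_cp (hdiv hD) a
    obtain ⟨t, rfl⟩ := TM.exists_cp (hdiv hD) b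
    rw [TM.cp_succ, wp_cp, ← TM.cp_succ s, ← map_nsmul, wp_cp, ← natCast_zsmul, ← one_smul ℤ t,
      dt_smul, one_smul, hn, hn, pow_succ]
    congr 1
    have := pk_ne
    push_cast
    field_simp

theorem pr : Pr (ga : GQ → Pt A B →+ Pt A B) (wp hD) :=
  tw_one ▸ pr_of hD (fun _ => 1) (fun _ _ => rfl) (fun _ => rfl) (IsLocallyConstant.const _)

theorem wp_lev (n : ℕ) (x y : Pt A B) : pp ^ n * wp hD n x y ∈ O :=
  O_of (dt hD (lf n x) (lf n y)).2 (by rw [wp, ← mul_assoc, hn_mul, one_mul])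

theorem wp_self (n : ℕ) (x : Pt A B) : wp hD n x x = 0 := by
  rw [wp, dt, mul_comm ((bs hD).repr _ 1), sub_self, PadicInt.coe_zero, mul_zero]

/-- the pairing is not degenerate -/
theorem wp_nd (a : pp ^ n • x = 0) (h : ∀ y, pp ^ n • y = 0 → wp hD n x y ∈ O) : x = 0 := by
  obtain ⟨s, rfl⟩ := TM.exists_cp (hdiv hD) a
  have k : ∀ i, ∃ c, dt hD s (bs hD i) = (pp : ℕ) ^ n * c := fun i => by
    have := (wp_cp hD n s (bs hD i)).symm.trans (mq_zero.2 (h _ (TM.pow_smul_cp _ _)))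
    rwa [mq_zero, hn, ← dv_iff, ← RingHom.mem_ker, PadicInt.ker_toZModPow,
      Ideal.mem_span_singleton] at this
  obtain ⟨c, k0⟩ := k 0
  obtain ⟨d, k1⟩ := k 1
  simp [dt] at k0 k1
  refine TM.cp_eq_zero_iff.2 ⟨d • bs hD 0 + -c • bs hD 1, ?_⟩
  rw [← (bs hD).sum_repr s, Fin.sum_univ_two, k1, neg_eq_iff_eq_neg.1 k0, smul_add, smul_smul,
    smul_smul, mul_neg]

end Vale.Agent.P014U.Ki
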