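import Vale.Agent.P014U.Ki.Two

/-!
# P014U, block KISO: the local torsion is finite, a local point at `pp` which is not divisible
-/

set_option linter.all false

open scoped Classical

noncomputable section

namespace Vale.Agent.P014U.Ki

open NumberField
open Vale.Agent.P022 (Qb GQ)
open Vale.Agent.P022D.W (dec)
open Vale.Agent.P022E.GW (Ov)
open Vale.Agent.P004M.TE (Pt ga)
open Vale.Agent.P014U.Ba (Tp)
open Vale.Agent.P014T

variable [Pp] {A B : ℤ} (hD : 4 * A ^ 3 + 27 * B ^ 2 ≠ 0) {l : ℕ} {P : Ideal (𝓞 Qb)}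
include hD

theorem fin_tp (h : Ov l P) : Finite (Tp (Wm.Fx A B (dec P))) :=
  Nat.finite_of_card_ne_zero fun e => by
    by_cases h2 : l = pp
    · obtain ⟨ι, hι⟩ := P014U.Ah.ex_ind (h2 ▸ h)
      obtain ⟨lg, y₀, -, -, -, -, -, a⟩ := P014U.Lc.two (disc hD) (md A B) hι
      rw [e, Nat.cast_zero, zero_mul] at a
      exact pow_ne_zero _ (Nat.cast_ne_zero.2 pp_ne) a.symm
    · exact pow_ne_zero _ pp_ne ((P014U.Lc.odd (disc hD) (md A B) h h2).1.symm.trans e)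

/-- the local points of order a power of `pp` are finite in number -/
theorem fin_tors (h : Ov l P) :
    {x : Pt A B | x ∈ Fx (dec P) ga ∧ ∃ j : ℕ, pp ^ j • x = 0}.Finite :=
  haveI := fin_tp hD h
  (Set.finite_range fun t : Tp (Wm.Fx A B (dec P)) => t.1.1).subset fun x ⟨a, j, b⟩ =>
    ⟨⟨⟨x, a⟩, j, Subtype.ext b⟩, rfl⟩

/-- the local torsion is bounded -/
theorem ft (h : Ov l P) :
    ∃ k : ℕ, ∀ x : Pt A B, x ∈ Fx (dec P) ga → ∀ j : ℕ, pp ^ j • x = 0 → pp ^ k • x = 0 := by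
  have f := fin_tors hD h
  have := f.to_subtype
  choose j hj using fun x : {x : Pt A B | x ∈ Fx (dec P) ga ∧ ∃ j : ℕ, pp ^ j • x = 0} => x.2.2
  obtain ⟨k, hk⟩ := (Set.finite_range j).bddAbove
  refine ⟨k, fun x a i b => ?_⟩
  obtain ⟨c, e⟩ := Nat.exists_eq_add_of_le (hk ⟨⟨x, a, i, b⟩, rfl⟩)
  exact e ▸ tor_up (hj _) c

/-- a local point at `pp` which is not divisible modulo torsion -/
theorem x0 (h : Ov pp P) : ∃ x : Pt A B, x ∈ Fx (dec P) ga ∧ ∀ (t : Pt A B) (j : ℕ),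
    pp ^ j • t = 0 → ∀ y ∈ Fx (dec P) ga, x ≠ t + pp • y := by
  obtain ⟨ι, hι⟩ := P014U.Ah.ex_ind h
  obtain ⟨lg, x, -, k, a, b, -⟩ := P014U.Lc.two (disc hD) (md A B) hι
  refine ⟨x, x.2, fun t j c y m e => ?_⟩
  have := (k (x - pp • ⟨y, m⟩)).2 (isOfFinAddOrder_iff_nsmul_eq_zero.2 ⟨_, pow_pos pp_pos j,
    Subtype.ext (by simpa [e] using c)⟩)
  rw [map_sub, sub_eq_zero, map_nsmul, nsmul_eq_mul] at this
  have n := congrArg norm this
  rw [norm_mul] at n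
  exact n.not_gt ((mul_le_mul_of_nonneg_left (b _) (norm_nonneg _)).trans_lt
    (mul_lt_of_lt_one_left (norm_pos_iff.2 a) Padic.norm_p_lt_one))

end Vale.Agent.P014U.Ki
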