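import Vale.Agent.P014U.Ki.Wp
import Vale.Agent.P014U.Lc.Fx
import Vale.Agent.P014T.Ki.Odd
import Vale.Agent.P014T.Kx.Tw

/-!
# P014U, block KISO: isotropy at the other primes and at infinity (helper25)
-/

set_option linter.all false

open scoped Classical

noncomputable section

namespace Vale.Agent.P014U.Ki

open NumberField
open Vale.Agent.P022 (Qb GQ)
open Vale.Agent.P022K.G2 (St ip)
open Vale.Agent.P022D.W (dec)
open Vale.Agent.P022E.GW (Ov)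
open Vale.Agent.P014U.X4S.Ga (K O B2)
open Vale.Agent.P014U.X4S.Aq (cy)
open Vale.Agent.P004M.TE (Pt ga)
open Vale.Agent.P004F (sd)
open Vale.Agent.P014U.Ba (Tp)
open Vale.Agent.P014T

export Vale.Agent.P014T.Ki (cls near mul_k1 fx_or)

theorem md (A B : ℤ) : Sm.Md (Lc.Wq ⟨0, 0, 0, A, B⟩) A B 1 0 0 0 := by
  refine ⟨one_ne_zero, ?_, ?_, ?_, ?_, ?_⟩ <;> simp

theorem disc {A B : ℤ} (hD : 4 * A ^ 3 + 27 * B ^ 2 ≠ 0) :
    (⟨0, 0, 0, A, B⟩ : WeierstrassCurve ℤ).Δ ≠ 0 := fun e => hD (by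
  simp only [WeierstrassCurve.Δ, WeierstrassCurve.b₂, WeierstrassCurve.b₄, WeierstrassCurve.b₆,
    WeierstrassCurve.b₈] at e
  linarith)

variable [Pp]

/-- repeated division -/
theorem dvm {Y : Type} [AddCommGroup Y] {F : ℕ → Y → Prop}
    (d : ∀ m y, F (m + 1) y → ∃ t ∈ Tp Y, ∃ y', F m y' ∧ y = t + pp • y') (m : ℕ) (y : Y)
    (h : F m y) : ∃ R, Nat.card (Tp Y) • y = pp ^ m • R := by
  induction m generalizing y with
  | zero => exact ⟨_, (one_smul _ _).symm⟩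
  | succ m ih =>
    obtain ⟨t, a, y, b, rfl⟩ := d m y h
    obtain ⟨R, e⟩ := ih y b
    exact ⟨R, by rw [smul_add, smul_comm, e, ← mul_smul, ← pow_succ', show Nat.card (Tp Y) • t = 0
      from congrArg Subtype.val (card_nsmul_eq_zero' (x := (⟨t, a⟩ : Tp Y))), zero_add]⟩

variable {A B : ℤ} {l : ℕ} {P : Ideal (𝓞 Qb)} {n : ℕ} {x y : Pt A B}

/-- at another prime a multiple of every local point is infinitely divisible -/
theorem div_loc (hD : 4 * A ^ 3 + 27 * B ^ 2 ≠ 0) (h : Ov l P) (h2 : l ≠ pp) (x : Pt A B)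
    (a : x ∈ Fx (dec P) ga) :
    ∃ N : ℕ, N ≠ 0 ∧ ∀ m : ℕ, ∃ R ∈ Fx (dec P) ga, N • x = pp ^ m • R := by
  obtain ⟨c, d⟩ := P014U.Lc.odd (disc hD) (md A B) h h2
  refine ⟨_, c ▸ pow_ne_zero _ pp_ne, fun m => ?_⟩
  obtain ⟨R, e⟩ := dvm (F := fun _ _ => True) (fun _ y _ => by simpa only [true_and] using d y) m
    (⟨x, a⟩ : Wm.Fx A B (dec P)) trivial
  exact ⟨R, R.2, congrArg Subtype.val e⟩

/-- the same on a twist -/
theorem div_odd (hD : 4 * A ^ 3 + 27 * B ^ 2 ≠ 0) (h : Ov l P) (h2 : l ≠ pp) {d : ℤ} (d0 : d ≠ 0)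
    (x : Pt A B) (a : x ∈ Fx (dec P) (tw (sd d))) :
    ∃ N : ℕ, N ≠ 0 ∧ ∀ m : ℕ, ∃ R ∈ Fx (dec P) (tw (sd d)), N • x = pp ^ m • R := by
  have q := Kx.Tw.tq d0 A B
  obtain ⟨N, N0, k⟩ := div_loc (q.hD hD) h h2 (Kx.Tw.tw q x) fun g m => by
    rw [Kx.Tw.ga_tw, ← map_zsmul, ← tw_apply, a g m]
  refine ⟨N, N0, fun m => ?_⟩
  obtain ⟨R, b, e⟩ := k m
  obtain ⟨R, rfl⟩ := (Kx.Tw.tw q).surjective R
  refine ⟨R, fun g j => (Kx.Tw.tw q).injective ?_, (Kx.Tw.tw q).injective ?_⟩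
  · rw [tw_apply, map_zsmul, ← Kx.Tw.ga_tw, b g j]
  · rwa [map_nsmul, map_nsmul]

variable {M : Type} [AddCommGroup M] {ρ : GQ → M →+ M} {w : ℕ → M → M → K}

/-- **isotropy at infinity** -/
theorem Pr.iso_inf (H : Pr ρ w) (one : ∀ x, ρ 1 x = x) (v : InfinitePlace Qb) {x y : M}
    (a : pp ^ n • x ∈ Fx (St (ip v)) ρ) (b : pp ^ n • y ∈ Fx (St (ip v)) ρ) :
    B2 cy (St (ip v)) (cu ρ w n x y) := by
  obtain ⟨c, hc⟩ := P022K.G2.ex_conj v.embedding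
  have e := P022K.G2.st_conj hc
  rw [InfinitePlace.mk_embedding] at e
  have e' : ∀ g, g ∈ St (ip v) ↔ g = 1 ∨ g = c := Set.ext_iff.1 e
  have m := (e' c).2 (.inr rfl)
  have cc : c * c = 1 := ((e' _).1 (mul_mem m m)).elim id fun k => by
    rw [mul_left_cancel (k.trans (mul_one c).symm), mul_one]
  refine H.iso0 (fun z hz => ⟨2, two_ne_zero, fun j => ?_⟩) a b
  obtain ⟨z, rfl⟩ := H.dvp j z
  refine ⟨z + ρ c z, fun g hg => ?_, by rw [smul_add, ← map_nsmul, hz c m, two_nsmul]⟩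
  rcases (e' g).1 hg with rfl | rfl
  · exact one _
  · rw [map_add, ← H.mul, cc, one, add_comm]

end Vale.Agent.P014U.Ki
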