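import Vale.Agent.P014U.Ki.Odd
import Vale.Agent.P014T.Ki.Two

/-!
# P014U, block KISO: isotropy of the Kummer images at all places (helper25)
-/

set_option linter.all false

open scoped Classical

noncomputable section

namespace Vale.Agent.P014U.Ki

open NumberField WeierstrassCurve.Affine Topology
open Vale.Agent.P022 (Qb GQ)
open Vale.Agent.P022K.G2 (St ip)
open Vale.Agent.P022D.W (dec)
open Vale.Agent.P022E.GW (Ov Fb)
open Vale.Agent.P004S (nu)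
open Vale.Agent.P014U.X4S.Ga (K O mem_O Z2 B2)
open Vale.Agent.P014U.X4S.Aq
open Vale.Agent.P014U.X4F
open Vale.Agent.P004M.TE (Pt ga Cv ga_mul ga_one ev_ga ga_some nsg_cv)
open Vale.Agent.P004F (sd hq)
open Vale.Agent.P004F.Qx.Fg (vi vn eA ex_O ne_bot int_mem)
open Vale.Agent.P014U.Ba (Tp)
open Vale.Agent.P014T P179W

export Vale.Agent.P014T.Ki (sd_mul sd_sq tw_zero fx_of)

variable [Pp]

/-- a global class which is trivial at all places but `pp` is trivial at `pp` -/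
def ONE2 : Prop := ∀ z, Z2 cy ⊤ z → ∀ P, Ov pp P →
  (∀ p : ℕ, p.Prime → p ≠ pp → ∃ Q, Ov p Q ∧ B2 cy (dec Q) z) → (∃ w, B2 cy (St (ip w)) z) →
  B2 cy (dec P) z

/-- rank one -/
theorem rk_one {Y : Type} [AddCommGroup Y] {lg : Y →+ K} {y₀ p : Y} (b : ∀ y, ‖lg y‖ ≤ ‖lg y₀‖)
    (d : ∀ y, ‖lg y‖ < ‖lg y₀‖ → ∃ t ∈ Tp Y, ∃ y', y = t + pp • y') (hp : lg p ≠ 0) (x : Y) :
    ∃ c : ℕ, ∀ m : ℕ, ∃ (s : ℕ) (R : Y),
      Nat.card (Tp Y) • pp ^ c • x = s • p + pp ^ m • R := by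
  obtain ⟨c, k⟩ := bdd (S := {lg x / lg p}) isCompact_singleton continuousOn_id
  have p0 := norm_pos_iff.2 pk_ne
  refine ⟨c, fun m => ?_⟩
  obtain ⟨s, e⟩ := Rc.apx m (k _ rfl)
  obtain ⟨R, r⟩ := dvm (F := fun m y => ‖lg y‖ ≤ ‖(pp : K)‖ ^ m * ‖lg y₀‖) (fun m y h => by
    obtain ⟨t, ⟨j, a⟩, y, rfl⟩ := d y (h.trans_lt (mul_lt_of_lt_one_left
      ((norm_pos_iff.2 hp).trans_le (b p)) (pow_lt_one₀ p0.le Padic.norm_p_lt_one m.succ_ne_zero)))
    have := congrArg lg a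
    rw [map_nsmul, map_zero, smul_eq_zero_iff_right (pw_pos j).ne'] at this
    rw [map_add, this, zero_add, map_nsmul, nsmul_eq_mul, norm_mul, pow_succ', mul_assoc,
      mul_le_mul_iff_right₀ p0] at h
    exact ⟨t, ⟨j, a⟩, y, h, rfl⟩) m (pp ^ c • x - s • p) (by
      rw [show lg (pp ^ c • x - s • p) = pp ^ m * (Rc.hn m * (pp ^ c * (lg x / lg p) - s) * lg p) by
        rw [← mul_assoc, ← mul_assoc, Rc.hn_mul, map_sub, map_nsmul, map_nsmul]
        simp only [nsmul_eq_mul]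
        push_cast
        field_simp, norm_mul, norm_mul, norm_pow]
      exact mul_le_mul_of_nonneg_left ((mul_le_of_le_one_left (norm_nonneg _) (mem_O.1 e)).trans
        (b p)) (by positivity))
  exact ⟨_, R, by rw [← r, smul_sub, mul_smul, add_sub_cancel]⟩

/-- no torsion in the formal group -/
theorem ntor {F : Type} [Field F] {Γ : Type} [LinearOrderedCommGroupWithZero Γ] {v : Valuation F Γ}
    {E : WeierstrassCurve F} (hc : CoeffIn E {z | v z ≤ 1}) (u : ∀ m : ℕ, ¬ pp ∣ m → v m = 1)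
    {Q : E.toAffine.Point} (h : KerV v Q) (z : Lc.zf Q ≠ 0) (k : v (Lc.zf Q) < v pp) :
    ¬ IsOfFinAddOrder Q := fun f => by
  obtain ⟨n, n0, e⟩ := f.exists_nsmul_eq_zero
  obtain ⟨j, m, c, rfl⟩ := Nat.exists_eq_pow_mul_and_not_dvd n0.ne' pp one_lt.ne'
  clear n0 f
  induction j generalizing Q with
  | zero =>
    have := Lc.v_nsmul hc h (u m c ▸ Lc.zf_lt hc h)
    rw [pow_zero, one_mul] at e
    rw [e, Lc.zf_zero, map_zero, u m c, one_mul, eq_comm, map_eq_zero] at this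
    exact z this
  | succ j ih =>
    have := Lc.v_nsmul hc h k
    refine ih ((Lc.E1 hc).nsmul_mem h pp) (fun a => ?_) (this ▸ mul_lt_of_lt_one_right
      (zero_le'.trans_lt k) (Lc.zf_lt hc h)) (by rw [← mul_smul, mul_right_comm, ← pow_succ, e])
    rw [a, map_zero, eq_comm, mul_eq_zero, or_iff_right (zero_le'.trans_lt k).ne', map_eq_zero] at this
    exact z this

variable {A B : ℤ} {l : ℕ} {P : Ideal (𝓞 Qb)} {n : ℕ} {x y : Pt A B} {φ : GQ}

/-- `pp` splits -/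
theorem nu_pp (o : Ov pp P) {e : ℤ} (he : (pp : ℤ) ∣ e - 1) {g : GQ} (hg : g ∈ dec P) :
    nu e g = 0 := by
  obtain ⟨β, hβ⟩ := P004S.ex_sqrt e
  refine (P004S.nu_eq_zero hβ).2 ((P004S.sqrt_or hβ (P004S.gal_sq hβ g)).resolve_right fun c => ?_)
  let y : 𝓞 Qb := ⟨β, IsIntegral.of_pow two_pos (hβ ▸ isIntegral_algebraMap (R := ℤ) (x := e))⟩
  have h1 : (y - 1) * (y + 1) ∈ P := by
    convert (int_mem o.2.1 o.1 o.2.2 _).2 he using 1
    exact RingOfIntegers.ext (by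
      show (β - 1) * (β + 1) = ((e - 1 : ℤ) : Qb)
      push_cast
      linear_combination hβ)
  have h2 : y - 1 ∈ P ↔ y + 1 ∈ P := by
    rw [← hg, show g • (y - 1) = -(y + 1) from RingOfIntegers.ext (by
      show g (β - 1) = -(β + 1)
      rw [map_sub, c, map_one]; ring), P.neg_mem_iff]
  have h3 := (o.2.1.mem_or_mem h1).elim id h2.2
  exact not_dvd_two (Int.natCast_dvd_natCast.1 ((int_mem o.2.1 o.1 o.2.2 (2 : ℕ)).1 (by
    convert P.sub_mem (h2.1 h3) h3 using 1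
    push_cast
    ring)))

variable (hD : 4 * A ^ 3 + 27 * B ^ 2 ≠ 0)
include hD

/-- a point of infinite order of a twist which is split at `pp` -/
theorem ex_pt (h : Ov pp P) : ∃ d : ℤ, (pp : ℤ) ∣ d - 1 ∧ ∃ p : Pt A B, p ∈ Fx ⊤ (tw (sd d)) ∧
    ¬ IsOfFinAddOrder p := by
  obtain ⟨O, hO⟩ := ex_O h.2.1 (ne_bot h.1.ne_zero h.2.2)
  have k : (pp : ℤ) ∣ 1 + pp ^ 8 * A + pp ^ 12 * B - 1 := ⟨pp ^ 7 * A + pp ^ 11 * B, by ring⟩
  refine ⟨_, k, ?_⟩
  obtain ⟨s, hs⟩ := P004S.ex_sqrt (1 + pp ^ 8 * A + pp ^ 12 * B)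
  have u : ∀ m : ℤ, ¬ (pp : ℤ) ∣ m → O.valuation m = 1 := fun m a => le_antisymm (vi m)
    (not_lt.1 fun b => a ((int_mem h.2.1 h.1 h.2.2 m).1 ((hO.mem h.2.1 m).1 b)))
  have nd : ¬ (pp : ℤ) ∣ 1 + pp ^ 8 * A + pp ^ 12 * B := fun a =>
    (Nat.prime_iff_prime_int.1 pp_prime).not_dvd_one (by simpa using a.sub k)
  have v2 : O.valuation pp < 1 := (hO.mem h.2.1 (pp : ℕ)).2 h.2.2
  have p0 : (pp : Qb) ≠ 0 := Nat.cast_ne_zero.2 pp_ne
  have v0 : 0 < O.valuation pp := zero_lt_iff.2 ((map_ne_zero _).2 p0)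
  have vs : O.valuation s = 1 := by
    rw [← pow_eq_one_iff_of_nonneg zero_le' two_ne_zero, ← map_pow, hs, u _ nd]
  have s0 : s ≠ 0 := fun k => by simp [k] at vs
  have ns : (Cv Qb (A : ℚ) (B : ℚ)).Nonsingular (1 / pp ^ 4) (s / pp ^ 6) :=
    nsg_cv two_ne_zero (hq hD) (by
      rw [eA, eA, div_pow, hs]
      push_cast
      field_simp)
  have e : Lc.zf (.some _ _ ns : Pt A B) = -(pp * pp / s) := by simp only [Lc.zf]; field_simp
  refine ⟨.some _ _ ns, fun g _ => ?_, ntor (v := O.valuation) (E := Cv Qb (A : ℚ) (B : ℚ)) ⟨by simp, by simp, by simp,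
    (congrArg O.valuation (eA A)).trans_le (vi A), (congrArg O.valuation (eA B)).trans_le (vi B)⟩
    (fun m a => by simpa using u m (mt Int.natCast_dvd_natCast.1 a)) (fun a => ?_) ?_ ?_⟩
  · rw [tw_apply, ga_some, sd]
    rcases P004S.z2 (nu (1 + pp ^ 8 * A + pp ^ 12 * B) g) with k | k
    · rw [if_pos k, one_smul]
      simp [(P004S.nu_eq_zero hs).1 k]
    · rw [if_neg (k ▸ one_ne_zero), neg_one_smul, Point.neg_some]
      simp [(P004S.nu_eq_one (fun a => nd (by rw [a]; exact dvd_zero _)) hs).1 k, negY, neg_div]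
  · rw [map_div₀, map_one, div_le_one₀ (by simpa using pow_pos v0 4), map_pow] at a
    exact a.not_gt (pow_lt_one₀ v0.le v2 four_ne_zero)
  · rw [e]
    simp [p0, s0]
  · rw [e, Valuation.map_neg, map_div₀, vs, div_one, map_mul]
    exact mul_lt_of_lt_one_right v0 v2

theorem pr_sd (d : ℤ) : Pr (tw (sd d)) (wp (hq hD)) :=
  pr_of _ _ (sd_mul d) (sd_sq d) (Kx.Tw.sd_lc d)

/-- **isotropy at the other primes** -/
theorem iso_odd (h : Ov l P) (h2 : l ≠ pp) (a : pp ^ n • x ∈ Fx (dec P) ga)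
    (b : pp ^ n • y ∈ Fx (dec P) ga) : B2 cy (dec P) (cu ga (wp (hq hD)) n x y) :=
  (pr _).iso0 (div_loc hD h h2) a b

/-- **isotropy at infinity** -/
theorem iso_inf (v : InfinitePlace Qb) (a : pp ^ n • x ∈ Fx (St (ip v)) ga)
    (b : pp ^ n • y ∈ Fx (St (ip v)) ga) : B2 cy (St (ip v)) (cu ga (wp (hq hD)) n x y) :=
  (pr _).iso_inf ga_one v a b

/-- **isotropy at `pp`** -/
theorem iso_two (H : ONE2) (h : Ov pp P) (a : pp ^ n • x ∈ Fx (dec P) ga)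
    (b : pp ^ n • y ∈ Fx (dec P) ga) : B2 cy (dec P) (cu ga (wp (hq hD)) n x y) := by
  obtain ⟨d, d1, p, p1, p2⟩ := ex_pt hD h
  have d0 : d ≠ 0 := fun e => (Nat.prime_iff_prime_int.1 pp_prime).not_dvd_one (by simpa [e] using d1)
  have t : ∀ g ∈ dec P, ∀ x : Pt A B, tw (sd d) g x = ga g x := fun g hg => tw_zero (nu_pp h d1 hg)
  have hp : p ∈ Fx (dec P) ga := fun g hg => (t g hg p).symm.trans (p1 g trivial)
  refine (pr _).iso hp (fun m q e => ?_) (fun z hz => ?_) a b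
  · subst e
    have R := pr_sd hD d
    refine Rc.b2_congr (H _ (R.z2 p1 p1) P h (fun l hl l2 => ?_) ⟨_, R.iso_inf
      (fun x => (tw_zero (P004S.nu_one _) x).trans (ga_one x))
      (.mk (IsAlgClosed.lift : Qb →ₐ[ℚ] ℂ).toRingHom) (fun g _ => p1 g trivial)
      fun g _ => p1 g trivial⟩) fun g hg j hj => ?_
    · have := Fact.mk hl
      have o : Ov l _ := ⟨hl, P022D.Loc2.PP_prime l, P022D.Loc2.p_mem_PP l⟩
      exact ⟨_, o, R.iso0 (div_odd hD o l2 d0) (fun g _ => p1 g trivial) fun g _ => p1 g trivial⟩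
    · rw [cu, cu, t g hg, t g hg, t j hj, sub_self]
      exact zero_mem _
  obtain ⟨ι, hι⟩ := P014U.Ah.ex_ind h
  obtain ⟨lg, y₀, -, k, -, a1, a2, a3⟩ := P014U.Lc.two (disc hD) (md A B) hι
  obtain ⟨c, r⟩ := rk_one a1 a2 (p := ⟨p, hp⟩)
    (fun e => p2 ((AddSubgroup.subtype _).isOfFinAddOrder ((k ⟨p, hp⟩).1 e))) ⟨z, hz⟩
  obtain ⟨j, u, hu, e⟩ := Nat.exists_eq_pow_mul_and_not_dvd (fun e : Nat.card (Tp (Wm.Fx A B (dec P))) = 0 => by
    rw [e, Nat.cast_zero, zero_mul] at a3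
    exact pow_ne_zero _ (Nat.cast_ne_zero.2 pp_ne) a3.symm) pp one_lt.ne'
  refine ⟨j + c, fun m => ?_⟩
  obtain ⟨s, R, q⟩ := r m
  refine ⟨u, s, R, R.2, hu, ?_⟩
  rw [pow_add, mul_smul, ← mul_smul u, mul_comm u, ← e, natCast_zsmul]
  exact congrArg Subtype.val q

/-- **isotropy of the Kummer images at every prime** -/
theorem iso_fin (H : ONE2) (h : Ov l P) (a : pp ^ n • x ∈ Fx (dec P) ga)
    (b : pp ^ n • y ∈ Fx (dec P) ga) : B2 cy (dec P) (cu ga (wp (hq hD)) n x y) := by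
  by_cases h2 : l = pp
  · exact iso_two hD H (h2 ▸ h) a b
  · exact iso_odd hD h h2 a b

end Vale.Agent.P014U.Ki
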